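import Mathlib

/-! Definitions for the statement of `P235.ThreeConnected`. -/

namespace Vale.Agent.P235D

/-- `G` is a minor of `H`: there is a partial map `g` from the vertices of `H` to the vertices of
`G` (`none` means deleted) whose fibres are nonempty and connected in `H` (they are contracted),
such that every edge of `G` comes from an edge of `H`. -/
def IsMinor {V W : Type} (G : SimpleGraph V) (H : SimpleGraph W) : Prop :=
  ∃ g : W → Option V, (∀ v, (H.induce {w | g w = some v}).Connected) ∧
    ∀ u v, G.Adj u v → ∃ a b, g a = some u ∧ g b = some v ∧ H.Adj a b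

/-- `G` is `3`-connected: at least `4` vertices, and connected after deleting any at most two. -/
def ThreeConnected {V : Type} (G : SimpleGraph V) : Prop :=
  4 ≤ Nat.card V ∧ ∀ S : Set V, S.ncard ≤ 2 → (G.induce Sᶜ).Connected

/-- `G` has pathwidth at most `p`: a path decomposition with bags `B 0, …, B (m - 1)` of at most
`p + 1` vertices. -/
def PathwidthLE {V : Type} (G : SimpleGraph V) (p : ℕ) : Prop :=
  ∃ (m : ℕ) (B : Fin m → Finset V),
    (∀ x, ∃ i, x ∈ B i) ∧ (∀ x y, G.Adj x y → ∃ i, x ∈ B i ∧ y ∈ B i) ∧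
    (∀ x i j l, i ≤ j → j ≤ l → x ∈ B i → x ∈ B l → x ∈ B j) ∧ ∀ i, (B i).card ≤ p + 1

/-- The shortest-path distance of `G` for the edge lengths `ℓ`. -/
noncomputable def pathDist {V : Type} (G : SimpleGraph V) (ℓ : Sym2 V → ℝ) (x y : V) : ℝ :=
  ⨅ q : G.Walk x y, (q.edges.map ℓ).sum

end Vale.Agent.P235D
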