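import Vale.Agent.Lib.P235D.TwoSum

/-! The bound for minor-closed families whose `3`-connected members have bounded pathwidth. -/

open SimpleGraph

namespace Vale.Agent.P235D

open Vale.Agent.P235 (EdgeGlued IsPM IsCut)

theorem cst_le {p q : ℕ} (h : q ≤ p + 2) :
    Vale.Agent.P235.cst q ≤ 2400 ^ (2 * p + 9) := by
  unfold Vale.Agent.P235.cst
  have e1 : (8 * (300 * 2400 ^ (q + 1)) : ℝ) = 2400 ^ (q + 2) := by ring
  rw [e1]
  have h1 : (1 : ℝ) ≤ 2400 ^ (q + 2) := one_le_pow₀ (by norm_num)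
  have h2 : (2400 : ℝ) ^ (q + 2) ≤ (2400 ^ (q + 2)) ^ 2 := by nlinarith
  have h3 : (2400 : ℝ) * (2400 ^ (q + 2)) ^ 2 = 2400 ^ (2 * q + 5) := by ring
  have h4 : (2400 : ℝ) ^ (2 * q + 5) ≤ 2400 ^ (2 * p + 9) :=
    pow_le_pow_right₀ (by norm_num) (by omega)
  nlinarith [sq_nonneg ((2400 : ℝ) ^ (q + 2))]

theorem embeds {V : Type} [Finite V] {G H : SimpleGraph V} {p q : ℕ} (hq : q ≤ p + 2)
    (hG : G.Connected) (hGH : G ≤ H) (hH : EdgeGlued H q Set.univ) (ℓ : Sym2 V → ℝ)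
    (hℓ : ∀ e ∈ G.edgeSet, 0 < ℓ e) :
    ∃ (k : ℕ) (f : V → Fin k → ℝ), ∀ x y : V,
      pathDist G ℓ x y ≤ ∑ i, |f x i - f y i| ∧
      ∑ i, |f x i - f y i| ≤ 2400 ^ (2 * p + 9) * pathDist G ℓ x y := by
  have := Fintype.ofFinite V
  have hHc : H.Connected := hG.mono hGH
  have hm : Vale.Agent.P235.IsMinor G H := by
    refine ⟨fun w => {w}, fun w => single_connected H _ w rfl, ?_, ?_⟩
    · intro w w' h
      exact Set.disjoint_singleton.mpr h
    · intro w w' h
      exact ⟨w, rfl, w', rfl, hGH h⟩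
  set ℓ' : Sym2 V → ℝ := fun e => max 0 (ℓ e) with hℓ'
  have hℓ0 : ∀ e, 0 ≤ ℓ' e := fun e => le_max_left _ _
  have hwl : ∀ (x y : V) (q : G.Walk x y),
      Vale.Agent.P235.walkLen ℓ q = Vale.Agent.P235.walkLen ℓ' q := by
    intro x y q
    unfold Vale.Agent.P235.walkLen
    congr 1
    apply List.map_congr_left
    intro e he
    exact (max_eq_right (hℓ e (q.edges_subset_edgeSet he)).le).symm
  have hpd : pathDist G ℓ = Vale.Agent.P235.pathDist G ℓ' := by
    funext x y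
    unfold pathDist Vale.Agent.P235.pathDist
    congr 1
    funext q
    exact hwl x y q
  rw [hpd]
  have hd : IsPM (Vale.Agent.P235.pathDist G ℓ') := Vale.Agent.P235.isPM_pathDist hG hℓ0
  obtain ⟨D, g, hD, hE, hDg⟩ := Vale.Agent.P235.host_metric (G := G) hd (by
    intro D' hD' hadj w w'
    have : Nonempty (G.Walk w w') := hG.preconnected w w'
    apply le_ciInf
    intro q
    induction q with
    | nil => rw [hD'.self]; exact Vale.Agent.P235.walkLen_nonneg hℓ0 _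
    | @cons a b c hab q ih =>
      have h1 := hadj a b hab
      have h2 := Vale.Agent.P235.pathDist_adj hℓ0 hab
      have h3 := hD'.tri a b c
      have h4 : Vale.Agent.P235.walkLen ℓ' (Walk.cons hab q) =
        ℓ' s(a, b) + Vale.Agent.P235.walkLen ℓ' q := by simp [Vale.Agent.P235.walkLen]
      have h5 := ih ⟨q⟩
      linarith) hHc hm
  obtain ⟨v₀⟩ := hHc.nonempty
  obtain ⟨F, cF, F1, F2⟩ := Vale.Agent.P235.cut_of_edgeGlued hD hH hE v₀ rfl rfl rfl
  obtain ⟨ι, hι, w, χ, hw, hχ, hFe⟩ := cF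
  have hC0 : (0 : ℝ) ≤ 2400 ^ (2 * p + 9) := by positivity
  have key : ∀ x y : V, ∑ i : Fin (Fintype.card ι),
      |2400 ^ (2 * p + 9) * (w ((Fintype.equivFin ι).symm i) *
        χ ((Fintype.equivFin ι).symm i) (g x)) -
      2400 ^ (2 * p + 9) * (w ((Fintype.equivFin ι).symm i) *
        χ ((Fintype.equivFin ι).symm i) (g y))| = 2400 ^ (2 * p + 9) * F (g x) (g y) := by
    intro x y
    rw [Equiv.sum_comp (Fintype.equivFin ι).symm (fun i =>
      |2400 ^ (2 * p + 9) * (w i * χ i (g x)) - 2400 ^ (2 * p + 9) * (w i * χ i (g y))|), hFe,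
      Finset.mul_sum]
    refine Finset.sum_congr rfl fun i _ => ?_
    rw [← mul_sub, ← mul_sub, abs_mul, abs_mul, abs_of_nonneg hC0, abs_of_nonneg (hw i)]
  have hF0 : ∀ x y, 0 ≤ F x y := by
    intro x y
    rw [hFe]
    exact Finset.sum_nonneg fun i _ => mul_nonneg (hw i) (abs_nonneg _)
  refine ⟨Fintype.card ι, fun x i => 2400 ^ (2 * p + 9) * (w ((Fintype.equivFin ι).symm i) *
    χ ((Fintype.equivFin ι).symm i) (g x)), fun x y => ?_⟩
  rw [key x y, ← hDg]
  constructor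
  · refine (F2 _ _).trans (mul_le_mul_of_nonneg_right ?_ (hF0 _ _))
    exact cst_le hq
  · exact mul_le_mul_of_nonneg_left (F1 _ _) hC0

theorem main (p : ℕ) (F : (V : Type) → SimpleGraph V → Prop)
    (hminor : ∀ (V W : Type) [Finite V] [Finite W] (G : SimpleGraph V) (H : SimpleGraph W),
      G.Connected → IsMinor G H → F W H → F V G)
    (h3 : ∀ (V : Type) [Finite V] (G : SimpleGraph V), F V G → ThreeConnected G →
      PathwidthLE G p)
    (V : Type) [Finite V] (G : SimpleGraph V) (hG : G.Connected) (hF : F V G)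
    (ℓ : Sym2 V → ℝ) (hℓ : ∀ e ∈ G.edgeSet, 0 < ℓ e) :
    ∃ (k : ℕ) (f : V → Fin k → ℝ), ∀ x y : V,
      pathDist G ℓ x y ≤ ∑ i, |f x i - f y i| ∧
      ∑ i, |f x i - f y i| ≤ 2400 ^ (2 * p + 9) * pathDist G ℓ x y := by
  obtain ⟨H, hGH, hH⟩ := exists_host (p := max p 2) (le_max_right _ _) F hminor (by
    intro V _ G hF hc
    obtain ⟨m, B, h1, h2, h3', h4⟩ := h3 V G hF hc
    exact ⟨m, B, h1, h2, h3', fun i => (h4 i).trans (by
      have : p ≤ max p 2 := le_max_left _ _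
      omega)⟩) _ V G rfl hG hF
  refine embeds (q := max p 2) ?_ hG hGH hH ℓ hℓ
  exact max_le (by omega) (by omega)

end Vale.Agent.P235D
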