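import Vale.Agent.Lib.P235.Final
import Vale.Agent.Lib.P235D.Defs

/-! Decomposition of the members of a minor-closed family along separations of order at most two:
each connected member is a spanning subgraph of an edge-glued graph whose pieces are `3`-connected
members or have at most three vertices. -/

open SimpleGraph

namespace Vale.Agent.P235D

open Vale.Agent.P235 (EdgeGlued)

theorem pw_transport {V W : Type} {G : SimpleGraph V} {H : SimpleGraph W} {p : ℕ} (e : V ≃ W)
    (h : ∀ a b, H.Adj (e a) (e b) → G.Adj a b) (hG : PathwidthLE G p) :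
    Vale.Agent.P235.PathwidthLE H p := by
  obtain ⟨m, B, h1, h2, h3, h4⟩ := hG
  refine ⟨m, fun i => (B i).map e.toEmbedding, ?_, ?_, ?_, ?_⟩
  · intro x
    obtain ⟨i, hi⟩ := h1 (e.symm x)
    refine ⟨i, ?_⟩
    rw [Finset.mem_map_equiv]
    exact hi
  · intro x y hxy
    have : G.Adj (e.symm x) (e.symm y) := by
      apply h
      rw [e.apply_symm_apply, e.apply_symm_apply]
      exact hxy
    obtain ⟨i, hx, hy⟩ := h2 _ _ this
    refine ⟨i, ?_, ?_⟩
    · rw [Finset.mem_map_equiv]
      exact hx
    · rw [Finset.mem_map_equiv]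
      exact hy
  · intro x i j l hij hjl hi hl
    rw [Finset.mem_map_equiv] at hi hl ⊢
    exact h3 _ i j l hij hjl hi hl
  · intro i
    rw [Finset.card_map]
    exact h4 i

theorem pw_transport' {V W : Type} {G : SimpleGraph V} {H : SimpleGraph W} {p : ℕ} (e : V ≃ W)
    (h : ∀ a b, H.Adj (e a) (e b) → G.Adj a b) (hG : Vale.Agent.P235.PathwidthLE G p) :
    Vale.Agent.P235.PathwidthLE H p :=
  pw_transport e h hG

theorem glued_transport {W V : Type} {H' : SimpleGraph W} {H : SimpleGraph V} {p : ℕ} (f : W ↪ V)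
    (hf : ∀ a b, H.Adj (f a) (f b) ↔ H'.Adj a b) {Y : Set W} (h : EdgeGlued H' p Y) :
    EdgeGlued H p (f '' Y) := by
  induction h with
  | piece X hX =>
    refine EdgeGlued.piece _ ?_
    refine pw_transport' (Equiv.Set.image f X f.injective) ?_ hX
    intro a b hab
    exact (hf _ _).mp hab
  | glue A B u v hA hB hAB huv hadj ihA ihB =>
    rw [Set.image_union]
    refine EdgeGlued.glue _ _ (f u) (f v) ihA ihB ?_ ?_ ?_
    · rw [← Set.image_inter f.injective, hAB, Set.image_pair]
    · rcases huv with h | h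
      · left; rw [h]
      · right; exact (hf _ _).mpr h
    · rintro _ ⟨⟨a, ha, rfl⟩, hna⟩ _ ⟨⟨b, hb, rfl⟩, hnb⟩ hab
      refine hadj a ⟨ha, fun h => hna ⟨a, h, rfl⟩⟩ b ⟨hb, fun h => hnb ⟨b, h, rfl⟩⟩ ?_
      exact (hf _ _).mp hab

/-- A surjective weak homomorphism preserves connectedness. -/
theorem connected_of_map {V W : Type} {G : SimpleGraph V} {H : SimpleGraph W} (hG : G.Connected)
    (r : V → W) (hr : Function.Surjective r)
    (hadj : ∀ a b, G.Adj a b → r a = r b ∨ H.Adj (r a) (r b)) : H.Connected := by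
  have key : ∀ a b (q : G.Walk a b), H.Reachable (r a) (r b) := by
    intro a b q
    induction q with
    | nil => exact Reachable.refl _
    | cons h q ih =>
      rcases hadj _ _ h with h1 | h1
      · rw [h1]; exact ih
      · exact h1.reachable.trans ih
  have hne : Nonempty W := ⟨r hG.nonempty.some⟩
  refine ⟨fun x y => ?_⟩
  obtain ⟨a, rfl⟩ := hr x
  obtain ⟨b, rfl⟩ := hr y
  obtain ⟨q⟩ := hG.preconnected a b
  exact key a b q

section side

variable {V : Type} {G : SimpleGraph V} {L : Set V} {u v : V}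

/-- the graph obtained by contracting the side `L` of a separation -/
def sideGraph (G : SimpleGraph V) (L : Set V) (u v : V) : SimpleGraph ↥(Lᶜ) where
  Adj a b := G.Adj a b ∨ (a ≠ b ∧ (((a : V) = u ∧ (b : V) = v) ∨ ((a : V) = v ∧ (b : V) = u)))
  symm := ⟨by
    intro a b h
    rcases h with h | ⟨h1, h2⟩
    · exact Or.inl h.symm
    · exact Or.inr ⟨h1.symm, by tauto⟩⟩
  loopless := ⟨by
    intro a h
    rcases h with h | ⟨h1, h2⟩
    · exact G.irrefl h
    · exact h1 rfl⟩

theorem side_connected (hG : G.Connected) (hu : u ∉ L) (hv : v ∉ L)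
    (hL : ∀ x ∈ L, ∀ y ∉ L, G.Adj x y → y = u ∨ y = v) : (sideGraph G L u v).Connected := by
  classical
  refine connected_of_map hG (fun w => if h : w ∈ Lᶜ then ⟨w, h⟩ else ⟨v, hv⟩) ?_ ?_
  · intro a
    refine ⟨a, ?_⟩
    simp only
    rw [dif_pos a.2]
  · intro a b hab
    by_cases ha : a ∈ L
    · have ha' : ¬ a ∈ Lᶜ := fun h => h ha
      by_cases hb : b ∈ L
      · have hb' : ¬ b ∈ Lᶜ := fun h => h hb
        left
        rw [dif_neg ha', dif_neg hb']
      · have hb' : b ∈ Lᶜ := hb
        rw [dif_neg ha', dif_pos hb']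
        rcases hL a ha b hb hab with h | h
        · by_cases huv : u = v
          · left
            exact Subtype.ext (huv.symm.trans h.symm)
          · right
            refine Or.inr ⟨?_, Or.inr ⟨rfl, h⟩⟩
            intro h'
            exact huv (h ▸ (congrArg Subtype.val h').symm)
        · left
          apply Subtype.ext
          exact h.symm
    · by_cases hb : b ∈ L
      · have hb' : ¬ b ∈ Lᶜ := fun h => h hb
        have ha' : a ∈ Lᶜ := ha
        rw [dif_pos ha', dif_neg hb']
        rcases hL b hb a ha hab.symm with h | h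
        · by_cases huv : u = v
          · left
            exact Subtype.ext (h.trans huv)
          · right
            refine Or.inr ⟨?_, Or.inl ⟨h, rfl⟩⟩
            intro h'
            exact huv (h ▸ (congrArg Subtype.val h'))
        · left
          apply Subtype.ext
          exact h
      · right
        have ha' : a ∈ Lᶜ := ha
        have hb' : b ∈ Lᶜ := hb
        rw [dif_pos ha', dif_pos hb']
        exact Or.inl hab

/-- the complement of a vertex set is attached to both ends of a minimal separator -/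
theorem exists_attach (hL : ∀ x ∈ L, ∀ y ∉ L, G.Adj x y → y = u ∨ y = v)
    (hne : L.Nonempty) (hu : u ∉ L) (hv : v ∉ L) (huv : u ≠ v)
    (hcv : (G.induce {v}ᶜ).Connected) : ∃ x ∈ L, G.Adj x u := by
  obtain ⟨c, hc⟩ := hne
  have hcv' : c ∈ ({v}ᶜ : Set V) := fun h => hv (by rw [Set.mem_singleton_iff] at h; rwa [← h])
  have huv' : u ∈ ({v}ᶜ : Set V) := fun h => huv h
  obtain ⟨q⟩ := hcv.preconnected ⟨c, hcv'⟩ ⟨u, huv'⟩
  obtain ⟨d, -, hd1, hd2⟩ := q.exists_boundary_dart {x | (x : V) ∈ L} hc hu
  have hadj : G.Adj d.fst d.snd := d.adj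
  rcases hL _ hd1 _ hd2 hadj with h | h
  · exact ⟨_, hd1, h ▸ hadj⟩
  · exact absurd h d.snd.2

theorem side_fibre (hL : ∀ x ∈ L, ∀ y ∉ L, G.Adj x y → y = u ∨ y = v)
    (hu : u ∉ L) (huv : u ≠ v)
    (hcu : (G.induce {u}ᶜ).Connected) : (G.induce (L ∪ {v})).Connected := by
  classical
  refine connected_of_map hcu (fun w => if h : (w : V) ∈ L ∪ {v} then ⟨w, h⟩ else
    ⟨v, Or.inr rfl⟩) ?_ ?_
  · intro a
    have ha : (a : V) ∈ ({u}ᶜ : Set V) := by
      intro h
      rw [Set.mem_singleton_iff] at h
      rcases a.2 with h' | h'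
      · exact hu (h ▸ h')
      · rw [Set.mem_singleton_iff] at h'
        exact huv (h.symm.trans h')
    refine ⟨⟨a, ha⟩, ?_⟩
    simp only
    rw [dif_pos a.2]
  · intro a b hab
    have hab' : G.Adj a b := hab
    have hau : (a : V) ≠ u := a.2
    have hbu : (b : V) ≠ u := b.2
    by_cases ha : (a : V) ∈ L ∪ {v}
    · by_cases hb : (b : V) ∈ L ∪ {v}
      · right
        rw [dif_pos ha, dif_pos hb]
        exact hab'
      · rw [dif_pos ha, dif_neg hb]
        left
        rcases ha with ha' | ha'
        · exfalso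
          have hbL : (b : V) ∉ L := fun h => hb (Or.inl h)
          rcases hL _ ha' _ hbL hab' with h | h
          · exact hbu h
          · exact hb (Or.inr h)
        · apply Subtype.ext
          exact ha'
    · by_cases hb : (b : V) ∈ L ∪ {v}
      · rw [dif_neg ha, dif_pos hb]
        left
        rcases hb with hb' | hb'
        · exfalso
          have haL : (a : V) ∉ L := fun h => ha (Or.inl h)
          rcases hL _ hb' _ haL hab'.symm with h | h
          · exact hau h
          · exact ha (Or.inr h)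
        · apply Subtype.ext
          exact hb'.symm
      · left
        rw [dif_neg ha, dif_neg hb]

theorem single_connected (G : SimpleGraph V) (s : Set V) (a : V) (h : s = {a}) :
    (G.induce s).Connected := by
  subst h
  have : Nonempty ↥({a} : Set V) := ⟨⟨a, rfl⟩⟩
  refine ⟨fun x y => ?_⟩
  have : x = y := Subtype.ext (x.2.trans y.2.symm)
  rw [this]

theorem side_minor (hL : ∀ x ∈ L, ∀ y ∉ L, G.Adj x y → y = u ∨ y = v)
    (hne : L.Nonempty) (hu : u ∉ L) (hv : v ∉ L)
    (hc : u ≠ v → (G.induce {u}ᶜ).Connected ∧ (G.induce {v}ᶜ).Connected) :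
    IsMinor (sideGraph G L u v) G := by
  classical
  by_cases huv : u = v
  · refine ⟨fun w => if h : w ∈ Lᶜ then some ⟨w, h⟩ else none, ?_, ?_⟩
    · intro a
      refine single_connected G _ a ?_
      ext w
      simp only [Set.mem_ofPred_eq, Set.mem_singleton_iff]
      constructor
      · intro h
        by_cases hw : w ∈ Lᶜ
        · rw [dif_pos hw, Option.some_inj] at h
          exact congrArg Subtype.val h
        · rw [dif_neg hw] at h
          exact absurd h (by simp)
      · intro h
        subst h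
        rw [dif_pos a.2]
    · intro a b hab
      refine ⟨a, b, dif_pos a.2, dif_pos b.2, ?_⟩
      rcases hab with h | ⟨h1, h2⟩
      · exact h
      · exfalso
        apply h1
        apply Subtype.ext
        rcases h2 with ⟨h, h'⟩ | ⟨h, h'⟩
        · rw [h, h', huv]
        · rw [h, h', huv]
  · obtain ⟨hcu, hcv⟩ := hc huv
    refine ⟨fun w => if h : w ∈ Lᶜ then some ⟨w, h⟩ else some ⟨v, hv⟩, ?_, ?_⟩
    · intro a
      by_cases hav : (a : V) = v
      · have hset : {w | (if h : w ∈ Lᶜ then some (⟨w, h⟩ : ↥(Lᶜ)) else some ⟨v, hv⟩) = some a} =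
            L ∪ {v} := by
          ext w
          simp only [Set.mem_ofPred_eq, Set.mem_union, Set.mem_singleton_iff]
          constructor
          · intro h
            by_cases hw : w ∈ Lᶜ
            · rw [dif_pos hw, Option.some_inj] at h
              right
              rw [← hav, ← h]
            · left
              exact not_not.mp hw
          · rintro (h | h)
            · have hw : ¬ w ∈ Lᶜ := fun h' => h' h
              rw [dif_neg hw, Option.some_inj]
              exact Subtype.ext hav.symm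
            · subst h
              have hw : w ∈ Lᶜ := hv
              rw [dif_pos hw, Option.some_inj]
              exact Subtype.ext hav.symm
        rw [hset]
        exact side_fibre hL hu huv hcu
      · refine single_connected G _ a ?_
        ext w
        simp only [Set.mem_ofPred_eq, Set.mem_singleton_iff]
        constructor
        · intro h
          by_cases hw : w ∈ Lᶜ
          · rw [dif_pos hw, Option.some_inj] at h
            exact congrArg Subtype.val h
          · rw [dif_neg hw, Option.some_inj] at h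
            exact absurd (congrArg Subtype.val h).symm hav
        · intro h
          subst h
          rw [dif_pos a.2]
    · intro a b hab
      obtain ⟨x, hxL, hxu⟩ := exists_attach hL hne hu hv huv hcv
      have hx : ¬ x ∈ Lᶜ := fun h => h hxL
      rcases hab with h | ⟨h1, ⟨h2, h3⟩ | ⟨h2, h3⟩⟩
      · exact ⟨a, b, dif_pos a.2, dif_pos b.2, h⟩
      · refine ⟨a, x, dif_pos a.2, ?_, ?_⟩
        · simp only
          rw [dif_neg hx, Option.some_inj]
          exact Subtype.ext h3.symm
        · rw [h2]
          exact hxu.symm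
      · refine ⟨x, b, ?_, dif_pos b.2, ?_⟩
        · simp only
          rw [dif_neg hx, Option.some_inj]
          exact Subtype.ext h2.symm
        · rw [h3]
          exact hxu

end side

/-- gluing the two host graphs of a separation -/
theorem glue_hosts {V : Type} {G : SimpleGraph V} {K L : Set V} {u v : V} {p : ℕ}
    (hKL : Disjoint K L) (huK : u ∉ K) (hvK : v ∉ K) (huL : u ∉ L) (hvL : v ∉ L)
    (hcov : ∀ x, x ∈ K ∨ x ∈ L ∨ x = u ∨ x = v)
    (hno : ∀ x ∈ K, ∀ y ∈ L, ¬ G.Adj x y)
    (HA : SimpleGraph ↥(Lᶜ)) (HB : SimpleGraph ↥(Kᶜ)) (hA : sideGraph G L u v ≤ HA)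
    (hB : sideGraph G K u v ≤ HB) (gA : EdgeGlued HA p Set.univ) (gB : EdgeGlued HB p Set.univ) :
    ∃ H : SimpleGraph V, G ≤ H ∧ EdgeGlued H p Set.univ := by
  have huLc : u ∈ Lᶜ := huL
  have hvLc : v ∈ Lᶜ := hvL
  have huKc : u ∈ Kᶜ := huK
  have hvKc : v ∈ Kᶜ := hvK
  have eA : u ≠ v → HA.Adj ⟨u, huLc⟩ ⟨v, hvLc⟩ := fun h =>
    hA (Or.inr ⟨fun h' => h (congrArg Subtype.val h'), Or.inl ⟨rfl, rfl⟩⟩)
  have eB : u ≠ v → HB.Adj ⟨u, huKc⟩ ⟨v, hvKc⟩ := fun h =>
    hB (Or.inr ⟨fun h' => h (congrArg Subtype.val h'), Or.inl ⟨rfl, rfl⟩⟩)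
  set fA : ↥(Lᶜ) ↪ V := Function.Embedding.subtype _ with hfA
  set fB : ↥(Kᶜ) ↪ V := Function.Embedding.subtype _ with hfB
  set H : SimpleGraph V := HA.map fA ⊔ HB.map fB with hH
  have hadjH : ∀ x y, H.Adj x y ↔ (∃ a b : ↥(Lᶜ), HA.Adj a b ∧ (a : V) = x ∧ (b : V) = y) ∨
      (∃ a b : ↥(Kᶜ), HB.Adj a b ∧ (a : V) = x ∧ (b : V) = y) := by
    intro x y
    rw [hH, SimpleGraph.sup_adj, SimpleGraph.map_adj, SimpleGraph.map_adj]
    rfl
  -- two distinct common vertices
  have hcommon : ∀ x y : V, x ≠ y → x ∉ K → x ∉ L → y ∉ K → y ∉ L →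
      (x = u ∧ y = v) ∨ (x = v ∧ y = u) := by
    intro x y hxy h1 h2 h3 h4
    rcases hcov x with h | h | h | h
    · exact absurd h h1
    · exact absurd h h2
    · rcases hcov y with h' | h' | h' | h'
      · exact absurd h' h3
      · exact absurd h' h4
      · exact absurd (h.trans h'.symm) hxy
      · exact Or.inl ⟨h, h'⟩
    · rcases hcov y with h' | h' | h' | h'
      · exact absurd h' h3
      · exact absurd h' h4
      · exact Or.inr ⟨h, h'⟩
      · exact absurd (h.trans h'.symm) hxy
  have hHA : ∀ a b : ↥(Lᶜ), H.Adj (fA a) (fA b) ↔ HA.Adj a b := by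
    intro a b
    rw [hadjH]
    constructor
    · rintro (⟨a', b', h, h1, h2⟩ | ⟨a', b', h, h1, h2⟩)
      · have e1 : a' = a := Subtype.ext h1
        have e2 : b' = b := Subtype.ext h2
        rwa [e1, e2] at h
      · have hne : (a : V) ≠ b := by
          intro h'
          apply h.ne
          apply Subtype.ext
          rw [h1, h2]
          exact h'
        have haK : (a : V) ∉ K := by
          have := a'.2
          rw [h1] at this
          exact this
        have hbK : (b : V) ∉ K := by
          have := b'.2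
          rw [h2] at this
          exact this
        rcases hcommon a b hne haK a.2 hbK b.2 with ⟨e1, e2⟩ | ⟨e1, e2⟩
        · have huv : u ≠ v := by rw [← e1, ← e2]; exact hne
          have e3 : a = ⟨u, huLc⟩ := Subtype.ext e1
          have e4 : b = ⟨v, hvLc⟩ := Subtype.ext e2
          rw [e3, e4]
          exact eA huv
        · have huv : u ≠ v := by rw [← e1, ← e2]; exact hne.symm
          have e3 : a = ⟨v, hvLc⟩ := Subtype.ext e1
          have e4 : b = ⟨u, huLc⟩ := Subtype.ext e2
          rw [e3, e4]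
          exact (eA huv).symm
    · intro h
      exact Or.inl ⟨a, b, h, rfl, rfl⟩
  have hHB : ∀ a b : ↥(Kᶜ), H.Adj (fB a) (fB b) ↔ HB.Adj a b := by
    intro a b
    rw [hadjH]
    constructor
    · rintro (⟨a', b', h, h1, h2⟩ | ⟨a', b', h, h1, h2⟩)
      · have hne : (a : V) ≠ b := by
          intro h'
          apply h.ne
          apply Subtype.ext
          rw [h1, h2]
          exact h'
        have haL : (a : V) ∉ L := by
          have := a'.2
          rw [h1] at this
          exact this
        have hbL : (b : V) ∉ L := by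
          have := b'.2
          rw [h2] at this
          exact this
        rcases hcommon a b hne a.2 haL b.2 hbL with ⟨e1, e2⟩ | ⟨e1, e2⟩
        · have huv : u ≠ v := by rw [← e1, ← e2]; exact hne
          have e3 : a = ⟨u, huKc⟩ := Subtype.ext e1
          have e4 : b = ⟨v, hvKc⟩ := Subtype.ext e2
          rw [e3, e4]
          exact eB huv
        · have huv : u ≠ v := by rw [← e1, ← e2]; exact hne.symm
          have e3 : a = ⟨v, hvKc⟩ := Subtype.ext e1
          have e4 : b = ⟨u, huKc⟩ := Subtype.ext e2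
          rw [e3, e4]
          exact (eB huv).symm
      · have e1 : a' = a := Subtype.ext h1
        have e2 : b' = b := Subtype.ext h2
        rwa [e1, e2] at h
    · intro h
      exact Or.inr ⟨a, b, h, rfl, rfl⟩
  refine ⟨H, ?_, ?_⟩
  · intro x y hxy
    rw [hadjH]
    by_cases hxL : x ∈ L
    · have hxK : x ∈ Kᶜ := fun h => Set.disjoint_left.mp hKL h hxL
      have hyK : y ∈ Kᶜ := fun h => hno y h x hxL hxy.symm
      exact Or.inr ⟨⟨x, hxK⟩, ⟨y, hyK⟩, hB (Or.inl hxy), rfl, rfl⟩
    · by_cases hyL : y ∈ L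
      · have hyK : y ∈ Kᶜ := fun h => Set.disjoint_left.mp hKL h hyL
        have hxK : x ∈ Kᶜ := fun h => hno x h y hyL hxy
        exact Or.inr ⟨⟨x, hxK⟩, ⟨y, hyK⟩, hB (Or.inl hxy), rfl, rfl⟩
      · exact Or.inl ⟨⟨x, hxL⟩, ⟨y, hyL⟩, hA (Or.inl hxy), rfl, rfl⟩
  · have tA : EdgeGlued H p (fA '' Set.univ) := glued_transport fA hHA gA
    have tB : EdgeGlued H p (fB '' Set.univ) := glued_transport fB hHB gB
    have iA : fA '' Set.univ = Lᶜ := by
      rw [Set.image_univ, hfA]
      exact Subtype.range_coe
    have iB : fB '' Set.univ = Kᶜ := by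
      rw [Set.image_univ, hfB]
      exact Subtype.range_coe
    rw [iA] at tA
    rw [iB] at tB
    have hun : (Set.univ : Set V) = Lᶜ ∪ Kᶜ := by
      ext x
      simp only [Set.mem_univ, Set.mem_union, Set.mem_compl_iff, true_iff]
      by_contra hx
      push Not at hx
      exact Set.disjoint_left.mp hKL hx.2 hx.1
    rw [hun]
    refine EdgeGlued.glue _ _ u v tA tB ?_ ?_ ?_
    · ext x
      simp only [Set.mem_inter_iff, Set.mem_compl_iff, Set.mem_insert_iff, Set.mem_singleton_iff]
      constructor
      · rintro ⟨h1, h2⟩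
        rcases hcov x with h | h | h | h
        · exact absurd h h2
        · exact absurd h h1
        · exact Or.inl h
        · exact Or.inr h
      · rintro (h | h)
        · rw [h]; exact ⟨huL, huK⟩
        · rw [h]; exact ⟨hvL, hvK⟩
    · by_cases huv : u = v
      · exact Or.inl huv
      · exact Or.inr ((hHA ⟨u, huLc⟩ ⟨v, hvLc⟩).mpr (eA huv))
    · rintro a ⟨-, haK⟩ b ⟨-, hbL⟩ hab
      have haK' : a ∈ K := not_not.mp haK
      have hbL' : b ∈ L := not_not.mp hbL
      rw [hadjH] at hab
      rcases hab with ⟨a', b', -, -, h2⟩ | ⟨a', b', -, h1, -⟩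
      · exact b'.2 (h2 ▸ hbL')
      · exact a'.2 (h1 ▸ haK')

/-- a graph with at least four vertices which is not `3`-connected has a separation -/
theorem exists_sep {V : Type} [Finite V] {G : SimpleGraph V} (hG : G.Connected)
    (h4 : 4 ≤ Nat.card V) (h3 : ¬ ThreeConnected G) :
    ∃ (K L : Set V) (u v : V), K.Nonempty ∧ L.Nonempty ∧ Disjoint K L ∧ u ∉ K ∧ v ∉ K ∧ u ∉ L ∧
      v ∉ L ∧ (∀ x, x ∈ K ∨ x ∈ L ∨ x = u ∨ x = v) ∧ (∀ x ∈ K, ∀ y ∈ L, ¬ G.Adj x y) ∧
      (u ≠ v → (G.induce {u}ᶜ).Connected ∧ (G.induce {v}ᶜ).Connected) := by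
  classical
  have hex : ∃ k : ℕ, ∃ S : Set V, S.ncard = k ∧ S.ncard ≤ 2 ∧ ¬ (G.induce Sᶜ).Connected := by
    by_contra hcon
    apply h3
    refine ⟨h4, fun S hS => ?_⟩
    by_contra h
    exact hcon ⟨S.ncard, S, rfl, hS, h⟩
  obtain ⟨S, hSk, hS2, hSc⟩ := Nat.find_spec hex
  have hmin : ∀ T : Set V, T.ncard < S.ncard → (G.induce Tᶜ).Connected := by
    intro T hT
    by_contra h
    have := Nat.find_min' hex ⟨T, rfl, by omega, h⟩
    omega
  have hS0 : S ≠ ∅ := by
    intro h
    apply hSc
    rw [h, Set.compl_empty]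
    refine connected_of_map hG (fun w => ⟨w, Set.mem_univ w⟩) ?_ ?_
    · intro a
      exact ⟨a, rfl⟩
    · intro a b hab
      exact Or.inr hab
  obtain ⟨u, v, huv⟩ : ∃ u v : V, S = {u, v} := by
    have h1 : S.ncard = 1 ∨ S.ncard = 2 := by
      have : S.ncard ≠ 0 := by
        intro h
        rw [Set.ncard_eq_zero] at h
        exact hS0 h
      omega
    rcases h1 with h | h
    · obtain ⟨a, ha⟩ := Set.ncard_eq_one.mp h
      exact ⟨a, a, by rw [ha]; simp⟩
    · obtain ⟨a, b, -, hab⟩ := Set.ncard_eq_two.mp h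
      exact ⟨a, b, hab⟩
  have huS : u ∈ S := by rw [huv]; simp
  have hvS : v ∈ S := by rw [huv]; simp
  have hne : Nonempty ↥(Sᶜ) := by
    by_contra h
    have h1 : Sᶜ = ∅ := by
      rw [← Set.isEmpty_coe_sort]
      exact not_nonempty_iff.mp h
    have h2 : S = Set.univ := Set.compl_empty_iff.mp h1
    rw [h2, Set.ncard_univ] at hS2
    omega
  have hnp : ¬ (G.induce Sᶜ).Preconnected := fun h => hSc ⟨h⟩
  obtain ⟨a, b, hab⟩ : ∃ a b, ¬ (G.induce Sᶜ).Reachable a b := by
    by_contra h
    push Not at h
    exact hnp h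
  set K : Set V := {x | ∃ h : x ∈ Sᶜ, (G.induce Sᶜ).Reachable a ⟨x, h⟩} with hK
  have hKS : ∀ x ∈ K, x ∉ S := fun x hx => hx.1
  refine ⟨K, (K ∪ S)ᶜ, u, v, ⟨a, a.2, Reachable.refl _⟩, ⟨b, ?_⟩, ?_, fun h => hKS u h huS,
    fun h => hKS v h hvS, fun h => h (Or.inr huS), fun h => h (Or.inr hvS), ?_, ?_, ?_⟩
  · rintro (⟨h, hr⟩ | h)
    · exact hab hr
    · exact b.2 h
  · rw [Set.disjoint_left]
    intro x hx hx'
    exact hx' (Or.inl hx)
  · intro x
    by_cases hxK : x ∈ K
    · exact Or.inl hxK
    · by_cases hxS : x ∈ S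
      · right; right
        rw [huv] at hxS
        exact hxS
      · right; left
        rintro (h | h)
        · exact hxK h
        · exact hxS h
  · rintro x ⟨hxS, hxr⟩ y hy hxy
    have hyS : y ∈ Sᶜ := fun h => hy (Or.inr h)
    apply hy
    left
    refine ⟨hyS, hxr.trans ?_⟩
    have : (G.induce Sᶜ).Adj ⟨x, hxS⟩ ⟨y, hyS⟩ := hxy
    exact this.reachable
  · intro hne'
    have h2 : S.ncard = 2 := by rw [huv, Set.ncard_pair hne']
    refine ⟨hmin _ ?_, hmin _ ?_⟩ <;> rw [Set.ncard_singleton, h2] <;> norm_num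

/-- every connected member of a minor-closed family whose `3`-connected members have pathwidth at
most `p` is a spanning subgraph of an edge-glued graph -/
theorem exists_host {p : ℕ} (hp : 2 ≤ p) (F : (V : Type) → SimpleGraph V → Prop)
    (hminor : ∀ (V W : Type) [Finite V] [Finite W] (G : SimpleGraph V) (H : SimpleGraph W),
      G.Connected → IsMinor G H → F W H → F V G)
    (h3 : ∀ (V : Type) [Finite V] (G : SimpleGraph V), F V G → ThreeConnected G →
      PathwidthLE G p) :
    ∀ (n : ℕ) (V : Type) [Finite V] (G : SimpleGraph V), Nat.card V = n → G.Connected → F V G →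
      ∃ H : SimpleGraph V, G ≤ H ∧ EdgeGlued H p Set.univ := by
  intro n
  induction n using Nat.strong_induction_on with
  | _ n ih =>
    intro V _ G hn hG hF
    by_cases hc : ThreeConnected G
    · refine ⟨G, le_rfl, EdgeGlued.piece _ ?_⟩
      refine pw_transport (Equiv.Set.univ V).symm ?_ (h3 V G hF hc)
      intro a b hab
      exact hab
    · by_cases h4 : 4 ≤ Nat.card V
      · obtain ⟨K, L, u, v, hKne, hLne, hKL, huK, hvK, huL, hvL, hcov, hno, hcon⟩ :=
          exists_sep hG h4 hc
        have hL' : ∀ x ∈ L, ∀ y ∉ L, G.Adj x y → y = u ∨ y = v := by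
          intro x hx y hy hxy
          rcases hcov y with h | h | h
          · exact absurd hxy.symm (hno y h x hx)
          · exact absurd h hy
          · exact h
        have hK' : ∀ x ∈ K, ∀ y ∉ K, G.Adj x y → y = u ∨ y = v := by
          intro x hx y hy hxy
          rcases hcov y with h | h | h
          · exact absurd h hy
          · exact absurd hxy (hno x hx y h)
          · exact h
        have cL : Nat.card ↥(Lᶜ) < n := by
          have h1 := Set.ncard_add_ncard_compl L
          have h2 : 0 < L.ncard := (Set.ncard_pos).mpr hLne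
          rw [Nat.card_coe_set_eq]
          omega
        have cK : Nat.card ↥(Kᶜ) < n := by
          have h1 := Set.ncard_add_ncard_compl K
          have h2 : 0 < K.ncard := (Set.ncard_pos).mpr hKne
          rw [Nat.card_coe_set_eq]
          omega
        obtain ⟨HA, hA, gA⟩ := ih _ cL ↥(Lᶜ) (sideGraph G L u v) rfl
          (side_connected hG huL hvL hL')
          (hminor _ _ _ G (side_connected hG huL hvL hL')
            (side_minor hL' hLne huL hvL hcon) hF)
        obtain ⟨HB, hB, gB⟩ := ih _ cK ↥(Kᶜ) (sideGraph G K u v) rfl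
          (side_connected hG huK hvK hK')
          (hminor _ _ _ G (side_connected hG huK hvK hK')
            (side_minor hK' hKne huK hvK hcon) hF)
        exact glue_hosts hKL huK hvK huL hvL hcov hno HA HB hA hB gA gB
      · refine ⟨G, le_rfl, EdgeGlued.piece _ ?_⟩
        have : Fintype ↥(Set.univ : Set V) := Fintype.ofFinite _
        refine ⟨1, fun _ => Finset.univ, fun x => ⟨0, Finset.mem_univ x⟩,
          fun x y _ => ⟨0, Finset.mem_univ x, Finset.mem_univ y⟩,
          fun x i j l _ _ _ _ => Finset.mem_univ x, fun i => ?_⟩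
        rw [Finset.card_univ, ← Nat.card_eq_fintype_card, Nat.card_coe_set_eq, Set.ncard_univ]
        omega

end Vale.Agent.P235D
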